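import Vale.Agent.P160.Final

open Vale.Agent.P160 Filter Topology

/-- Structured kernel vectors of random symmetric sign matrices. -/
theorem Vale.Agent.Results.P160.StructuredKernel.result :
    -- a nonzero kernel vector which has at least 4n/log n zero coordinates, or which has integer
    -- coordinates of absolute value at most sqrt n / 200
    Tendsto (fun n : ℕ => Pr n (fun M => ∃ v : Fin n → ℝ, v ≠ 0 ∧ M.mulVec v = 0 ∧
        (4 * (n : ℝ) / Real.log n ≤ Nat.card {i : Fin n // v i = 0} ∨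
          ∀ i, ∃ m : ℤ, v i = m ∧ |(m : ℝ)| ≤ Real.sqrt n / 200)) * 2 ^ n / (n : ℝ) ^ 2)
      atTop (𝓝 1) ∧
    -- large corank
    (∀ n k : ℕ, Pr n (fun M => k ≤ Module.finrank ℝ (LinearMap.ker M.mulVecLin)) ≤
      2 ^ n / 2 ^ (k * (k + 1) / 2)) ∧
    -- lower bound for the singularity probability
    (∀ ε : ℝ, 0 < ε → ∀ᶠ n : ℕ in atTop,
      (1 - ε) * ((n : ℝ) ^ 2 / 2 ^ n) ≤ Pr n (fun M => M.det = 0)) := by
  have hPr : ∀ (n : ℕ) (E : Matrix (Fin n) (Fin n) ℝ → Prop),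
      Pr n E = P (Sym2 (Fin n)) (fun ω => E (symMat n ω)) := by
    intro n E
    classical
    unfold Pr
    rw [P_def, Nat.card_eq_fintype_card, Nat.card_eq_fintype_card, Fintype.card_subtype]
    simp
  have hA : ∀ (n : ℕ) (ω : Sym2 (Fin n) → Bool) (v : Fin n → ℝ),
      (symMat n ω).mulVec v = 0 ↔ ∀ i, ∑ j, A ω i j * v j = 0 := by
    intro n ω v
    constructor
    · intro h i
      exact congrFun h i
    · intro h
      funext i
      exact h i
  have hlim : Tendsto (fun n : ℕ => Pr n (fun M => ∃ v : Fin n → ℝ, v ≠ 0 ∧ M.mulVec v = 0 ∧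
        (4 * (n : ℝ) / Real.log n ≤ Nat.card {i : Fin n // v i = 0} ∨
          ∀ i, ∃ m : ℤ, v i = m ∧ |(m : ℝ)| ≤ Real.sqrt n / 200)) * 2 ^ n / (n : ℝ) ^ 2)
      atTop (𝓝 1) := by
    refine St_limit.congr fun n => ?_
    rw [hPr]
    congr 3
    funext ω
    apply propext
    unfold St
    simp only [hA]
  refine ⟨hlim, ?_, ?_⟩
  · intro n k
    rw [hPr]
    have h1 := P_corank (V := Fin n) k
    rw [Fintype.card_fin, Nat.choose_two_right] at h1
    have e1 : (k + 1) * (k + 1 - 1) / 2 = k * (k + 1) / 2 := by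
      rw [Nat.add_sub_cancel, mul_comm]
    rw [e1] at h1
    refine le_trans (P_mono fun ω hω => ?_) h1
    have h2 : LinearMap.ker (symMat n ω).mulVecLin = Ker ω Finset.univ Finset.univ := by
      ext v
      rw [LinearMap.mem_ker, Matrix.mulVecLin_apply, hA, mem_Ker]
      simp
    rw [h2] at hω
    exact hω
  · intro ε hε
    have h1 := hlim.eventually (lt_mem_nhds (show (1 - ε : ℝ) < 1 by linarith))
    filter_upwards [h1, eventually_ge_atTop 1] with n hn hn1
    have hn0 : (0 : ℝ) < n := by exact_mod_cast hn1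
    have h2 : Pr n (fun M => ∃ v : Fin n → ℝ, v ≠ 0 ∧ M.mulVec v = 0 ∧
        (4 * (n : ℝ) / Real.log n ≤ Nat.card {i : Fin n // v i = 0} ∨
          ∀ i, ∃ m : ℤ, v i = m ∧ |(m : ℝ)| ≤ Real.sqrt n / 200)) ≤ Pr n (fun M => M.det = 0) := by
      rw [hPr, hPr]
      refine P_mono fun ω => ?_
      rintro ⟨v, hv, hk, -⟩
      exact Matrix.exists_mulVec_eq_zero_iff.mp ⟨v, hv, hk⟩
    rw [lt_div_iff₀ (by positivity)] at hn
    have h3 : (1 - ε) * ((n : ℝ) ^ 2 / 2 ^ n) ≤ Pr n (fun M => ∃ v : Fin n → ℝ, v ≠ 0 ∧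
        M.mulVec v = 0 ∧
        (4 * (n : ℝ) / Real.log n ≤ Nat.card {i : Fin n // v i = 0} ∨
          ∀ i, ∃ m : ℤ, v i = m ∧ |(m : ℝ)| ≤ Real.sqrt n / 200)) := by
      rw [← mul_div_assoc, div_le_iff₀ (by positivity)]
      exact hn.le
    exact h3.trans h2
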